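import Vale.Agent.P144Q.E.Asm
import Vale.Agent.P144.H436.JAll

/-!
Directions of the energies in a general domain: reduction to the kernels.
-/

set_option linter.all false

namespace Vale.Agent.P144Q.E.JF

open Finset Vale.Agent.P144.AL Filter Topology
open Vale.Agent.P144 hiding QQ XX
open Vale.Agent.P144.H436 (nn MM upd upd_j upd_cnp upd_rho upd_wl upd_rr kapT Lp Lr lbs_split
  lbs_nd not_tip upd_tp sub_left sub_right)

/-- The relation between the limits of the kernels for the two directions of the energy `k`. -/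
structure KJ (Λ : ℝ → Finset Site) (p : Pts) (k : Fin p.m) : Prop where
  other : ∀ y : Lb p.n p.m, y ≠ .lo k → y ≠ .hi k → ¬ isTp p y → ∃ cA cB cC : ℂ,
    cB + cC = (√2 : ℝ) * cA ∧
    Tendsto (fun a : ℝ => rho (upd p k 0) a (.lo k) * rho (upd p k 0) a y *
      (Kn Λ (upd p k 0) a (.lo k) y : ℂ) / a) (𝓝[>] 0) (𝓝 cA) ∧
    Tendsto (fun a : ℝ => rho (upd p k 0) a (.hi k) * rho (upd p k 0) a y *
      (Kn Λ (upd p k 0) a (.hi k) y : ℂ) / a) (𝓝[>] 0) (𝓝 cB) ∧
    Tendsto (fun a : ℝ => rho (upd p k 1) a (.hi k) * rho (upd p k 1) a y *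
      (Kn Λ (upd p k 1) a (.hi k) y : ℂ) / a) (𝓝[>] 0) (𝓝 cC)
  self : ∃ c : ℂ, Tendsto (fun a : ℝ =>
    rho (upd p k 0) a (.lo k) * rho (upd p k 0) a (.hi k) * ((Kn Λ (upd p k 0) a (.lo k) (.hi k) -
      sgn (upd p k 0) a k * Wf (Λ a) 0 [cnp (upd p k 0) a (.lo k),
        cnp (upd p k 0) a (.hi k)] : ℝ) : ℂ) / a) (𝓝[>] 0) (𝓝 c) ∧ Tendsto (fun a : ℝ =>
    rho (upd p k 1) a (.lo k) * rho (upd p k 1) a (.hi k) * ((Kn Λ (upd p k 1) a (.lo k) (.hi k) -
      sgn (upd p k 1) a k * Wf (Λ a) 0 [cnp (upd p k 1) a (.lo k),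
        cnp (upd p k 1) a (.hi k)] : ℝ) : ℂ) / a) (𝓝[>] 0) (𝓝 (-c))

section

variable (Λ : ℝ → Finset Site) (p : Pts)

/-- From the kernels to the scaled kernels. -/
theorem rr_lim {x y : Lb p.n p.m} (hx : ¬ isTp p x) (hy : ¬ isTp p y) {c : ℂ}
    (h : Tendsto (fun a : ℝ => rho p a x * rho p a y * (Kn Λ p a x y : ℂ) / a) (𝓝[>] 0) (𝓝 c)) :
    Tendsto (fun a : ℝ => AL.rr p a x * AL.rr p a y * (Kw Λ p a x y : ℂ)) (𝓝[>] 0) (𝓝 c) := by
  refine h.congr' ?_
  filter_upwards [self_mem_nhdsWithin] with a ha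
  have ha : 0 < a := ha
  have hs : (√a : ℂ) ≠ 0 := by exact_mod_cast (Real.sqrt_pos.2 ha).ne'
  rw [rr_eq p a hx, rr_eq p a hy, show Kw Λ p a x y = wl (fun i => fl a (p.x i))
    (fun k => fl a (p.y k)) p.j x * wl (fun i => fl a (p.x i)) (fun k => fl a (p.y k)) p.j y *
    Kn Λ p a x y from rfl, ← sqrt_mul_C ha]
  have h1 := congrArg (fun t : ℝ => (t : ℂ)) (wl_sq p (fun i => fl a (p.x i))
    (fun k => fl a (p.y k)) x)
  have h2 := congrArg (fun t : ℝ => (t : ℂ)) (wl_sq p (fun i => fl a (p.x i))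
    (fun k => fl a (p.y k)) y)
  push_cast at h1 h2 ⊢
  generalize (wl (fun i => fl a (p.x i)) (fun k => fl a (p.y k)) p.j x : ℂ) = w1 at *
  generalize (wl (fun i => fl a (p.x i)) (fun k => fl a (p.y k)) p.j y : ℂ) = w2 at *
  have e : w1 * (rho p a x / (√a : ℂ)) * (w2 * (rho p a y / (√a : ℂ))) *
      (w1 * w2 * (Kn Λ p a x y : ℂ)) =
      (w1 * w1) * (w2 * w2) * (rho p a x * rho p a y * (Kn Λ p a x y : ℂ) / ((√a : ℂ) * (√a : ℂ))) := by
    field_simp
  rw [e, h1, h2, one_mul, one_mul]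

/-- The same for the pair of the corners of an energy. -/
theorem rr_pair {ks : List (Fin p.m)} {k : Fin p.m} (hk : k ∈ ks) (hks : ks.Nodup) {c : ℂ}
    (hc : Tendsto (fun a : ℝ =>
    rho p a (.lo k) * rho p a (.hi k) * ((Kn Λ p a (.lo k) (.hi k) -
      sgn p a k * Wf (Λ a) 0 [cnp p a (.lo k), cnp p a (.hi k)] : ℝ) : ℂ) / a)
      (𝓝[>] 0) (𝓝 c)) : Tendsto (fun a : ℝ => AL.rr p a (.lo k) * AL.rr p a (.hi k) *
      (Kz Λ p ks a (.lo k) (.hi k) : ℂ)) (𝓝[>] 0) (𝓝 c) := by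
  refine hc.congr' ?_
  filter_upwards [self_mem_nhdsWithin] with a ha
  have ha : 0 < a := ha
  have hs : (√a : ℂ) ≠ 0 := by exact_mod_cast (Real.sqrt_pos.2 ha).ne'
  rw [cen_pair Λ p a hk hks, rr_eq p a (x := .lo k) (by simp [isTp]),
    rr_eq p a (x := .hi k) (by simp [isTp])]
  set w : ℝ := wl (fun i => fl a (p.x i)) (fun k => fl a (p.y k)) p.j (.hi k) with hw
  have hw2 : w * w = 1 := wl_sq p _ _ _
  have hwe : w = ep (cnp p a (.lo k)) (cnp p a (.hi k)) * sgn p a k := rfl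
  have e0 : wl (fun i => fl a (p.x i)) (fun k => fl a (p.y k)) p.j (.lo k : Lb p.n p.m) = 1 := rfl
  have e1 : Kw Λ p a (.lo k) (.hi k) = w * Kn Λ p a (.lo k) (.hi k) := by
    show (1 : ℝ) * w * _ = _
    rw [one_mul]; rfl
  have he := ep_sq (cnp p a (.lo k)) (cnp p a (.hi k))
  have e2 : w * (Kw Λ p a (.lo k) (.hi k) - tk Λ p a k) = Kn Λ p a (.lo k) (.hi k) -
      sgn p a k * Wf (Λ a) 0 [cnp p a (.lo k), cnp p a (.hi k)] := by
    rw [e1, mul_sub, ← mul_assoc, hw2, one_mul]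
    congr 1
    unfold tk
    rw [hwe]
    linear_combination (sgn p a k * Wf (Λ a) 0 [cnp p a (.lo k), cnp p a (.hi k)]) * he
  rw [← e2, e0]
  have h3 := sqrt_mul_C ha
  rw [← h3]
  push_cast
  field_simp

theorem Kn_swap (hp : H436.Good0 p) {x y : Lb p.n p.m} (h : x ≠ y) :
    ∀ᶠ a in 𝓝[>] (0:ℝ), Kn Λ p a x y = -Kn Λ p a y x := by
  filter_upwards [sep_ev p hp] with a hs
  unfold Kn
  exact Wf_swap _ _ (Sep.cn_cnr x) (Sep.cn_cnr y) fun h' => h (hs.1.cn_inj hs.2 h')

theorem lim_swap (hp : H436.Good0 p) {x y : Lb p.n p.m} (hne : x ≠ y) {c : ℂ}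
    (h : Tendsto (fun a : ℝ => rho p a x * rho p a y * (Kn Λ p a x y : ℂ) / a) (𝓝[>] 0) (𝓝 c)) :
    Tendsto (fun a : ℝ => rho p a y * rho p a x * (Kn Λ p a y x : ℂ) / a) (𝓝[>] 0) (𝓝 (-c)) := by
  refine h.neg.congr' ?_
  filter_upwards [Kn_swap Λ p hp hne] with a ha
  rw [ha]
  push_cast
  ring

variable {Λ p} {k : Fin p.m}

theorem upd_Kw {x y : Lb p.n p.m} (hx : x ≠ .hi k) (hy : y ≠ .hi k) (a : ℝ) (e e' : Fin 2) :
    Kw Λ (upd p k e) a x y = Kw Λ (upd p k e') a x y := by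
  have e1 : ∀ f : Fin 2, Kw Λ (upd p k f) a x y = wl (fun i => fl a (p.x i)) (fun k => fl a (p.y k))
    (Function.update p.j k f) x * wl (fun i => fl a (p.x i)) (fun k => fl a (p.y k))
    (Function.update p.j k f) y * Wf (Λ a) (Rp p a) [cnp (upd p k f) a x,
      cnp (upd p k f) a y] := fun _ => rfl
  rw [e1, e1, upd_cnp hx a e e', upd_cnp hy a e e', upd_wl hx _ _ e e', upd_wl hy _ _ e e']

theorem upd_tk {l : Fin p.m} (hl : l ≠ k) (a : ℝ) (e e' : Fin 2) :
    tk Λ (upd p k e) a l = tk Λ (upd p k e') a l := by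
  unfold tk
  rw [upd_cnp (x := (.lo l : Lb p.n p.m)) (by simp) a e e',
    upd_cnp (x := (.hi l : Lb p.n p.m)) (by simpa using hl) a e e']

theorem upd_Kz {x y : Lb p.n p.m} (hx : x ≠ .hi k) (hy : y ≠ .hi k) (ks : List (Fin p.m)) (a : ℝ)
    (e e' : Fin 2) : Kz Λ (upd p k e) ks a x y = Kz Λ (upd p k e') ks a x y := by
  classical
  unfold Kz cenK
  rw [upd_Kw hx hy a e e']
  congr 1
  congr 1
  refine List.map_congr_left fun (l : Fin p.m) _ => ?_
  by_cases hl : l = k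
  · rw [hl, if_neg fun h => hy h.2, if_neg fun h => hy h.2]
  · rw [upd_tk (p := p) (k := k) hl a e e']

variable {P R : List (Fin p.m)} (hks : (P ++ k :: R).Nodup)
  {K : Lb p.n p.m → Lb p.n p.m → ℂ}

include hks in
/-- The limits of the kernels for the turned energy. -/
theorem kapT_lim (hp : H436.Good0 p) (hj : KJ Λ p k)
    (hK : ∀ x y : Lb p.n p.m, [x, y].Sublist (lbs (n := p.n) (P ++ k :: R) []) →
      Tendsto (fun a : ℝ => AL.rr (upd p k 0) a x * AL.rr (upd p k 0) a y *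
        (Kz Λ (upd p k 0) (P ++ k :: R) a x y : ℂ)) (𝓝[>] 0) (𝓝 (K x y))) (x y : Lb p.n p.m)
    (hxy : [x, y].Sublist (lbs (n := p.n) (P ++ k :: R) [])) :
      Tendsto (fun a : ℝ => AL.rr (upd p k 1) a x * AL.rr (upd p k 1) a y *
        (Kz Λ (upd p k 1) (P ++ k :: R) a x y : ℂ)) (𝓝[>] 0) (𝓝 (kapT k K x y)) := by
  have hnd := lbs_nd hks (p := p)
  have hkk : k ∈ P ++ k :: R := by simp
  have hx : ¬ isTp p x := not_tip (hxy.subset (by simp))
  have hy : ¬ isTp p y := not_tip (hxy.subset (by simp))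
  have hxy' : x ≠ y := by
    rintro rfl
    rw [lbs_split] at hxy
    have := hnd.sublist hxy
    simp at this
  have hlo : ¬ isTp p (.lo k : Lb p.n p.m) := by simp [isTp]
  have hhi : ¬ isTp p (.hi k : Lb p.n p.m) := by simp [isTp]
  unfold kapT
  by_cases hyk : y = .hi k
  · subst hyk
    rw [if_pos rfl]
    by_cases hxk : x = .lo k
    · subst hxk
      rw [if_pos rfl]
      obtain ⟨c, h0, h1⟩ := hj.self
      have e := tendsto_nhds_unique (hK _ _ hxy) (rr_pair Λ (upd p k 0) hkk hks h0)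
      rw [e]
      exact rr_pair Λ (upd p k 1) hkk hks h1
    · rw [if_neg hxk]
      obtain ⟨cA, cB, cC, hc, hA, hB, hC⟩ := hj.other x hxk hxy' hx
      have hxL : x ∈ Lp p P := by
        rw [lbs_split] at hxy
        have h1 : (Lp p P ++ .lo k :: .hi k :: Lr p R : List (Lb p.n p.m)) =
          (Lp p P ++ [.lo k]) ++ .hi k :: Lr p R := by simp
        rw [h1] at hxy hnd
        rcases List.mem_append.1 (sub_left hnd hxy) with h | h
        · exact h
        · exact absurd (List.mem_singleton.1 h) hxk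
      have s1 : [x, .lo k].Sublist (lbs (n := p.n) (P ++ k :: R) []) := by
        rw [lbs_split]
        have h3 : ([x] ++ [(Lb.lo k : Lb p.n p.m)]).Sublist
            (Lp p P ++ .lo k :: .hi k :: Lr p R) :=
          (List.singleton_sublist.2 hxL).append (List.singleton_sublist.2 (by simp))
        exact h3
      have nx : ∀ l : Fin p.m, ¬ (x = .lo l ∧ (.lo k : Lb p.n p.m) = .hi l) := by
        rintro l ⟨_, h⟩; cases h
      have nx' : ∀ l : Fin p.m, ¬ (x = .lo l ∧ (.hi k : Lb p.n p.m) = .hi l) := by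
        rintro l ⟨h, h'⟩
        injection h' with h'
        exact hxk (by rw [h, h'])
      have e1 : K x (.lo k) = -cA := by
        refine tendsto_nhds_unique (hK _ _ s1) ?_
        have := rr_lim Λ (upd p k 0) (upd_tp hx 0) (upd_tp hlo 0) (lim_swap Λ (upd p k 0) hp (Ne.symm hxk) hA)
        exact this.congr fun a => by rw [cen_other Λ (upd p k 0) _ a nx]
      have e2 : K x (.hi k) = -cB := by
        refine tendsto_nhds_unique (hK _ _ hxy) ?_
        have := rr_lim Λ (upd p k 0) (upd_tp hx 0) (upd_tp hhi 0) (lim_swap Λ (upd p k 0) hp (Ne.symm hxy') hB)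
        exact this.congr fun a => by rw [cen_other Λ (upd p k 0) _ a nx']
      have e3 : ((√2 : ℝ) : ℂ) * K x (.lo k) - K x (.hi k) = -cC := by
        rw [e1, e2]
        linear_combination hc
      rw [e3]
      have := rr_lim Λ (upd p k 1) (upd_tp hx 1) (upd_tp hhi 1) (lim_swap Λ (upd p k 1) hp (Ne.symm hxy') hC)
      exact this.congr fun a => by rw [cen_other Λ (upd p k 1) _ a nx']
  · rw [if_neg hyk]
    by_cases hxk : x = .hi k
    · subst hxk
      rw [if_pos rfl]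
      have hyL : y ∈ Lr p R := by
        rw [lbs_split] at hxy
        have h1 : (Lp p P ++ .lo k :: .hi k :: Lr p R : List (Lb p.n p.m)) =
          (Lp p P ++ [.lo k]) ++ .hi k :: Lr p R := by simp
        rw [h1] at hxy hnd
        exact sub_right hnd hxy
      have hyl : y ≠ .lo k := by
        rintro rfl
        have := (List.nodup_cons.1 (List.nodup_append.1 hnd).2.1).1
        exact this (List.mem_cons_of_mem _ hyL)
      obtain ⟨cA, cB, cC, hc, hA, hB, hC⟩ := hj.other y hyl hyk hy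
      have s1 : [.lo k, y].Sublist (lbs (n := p.n) (P ++ k :: R) []) := by
        rw [lbs_split]
        have h3 : [.lo k, y].Sublist (.lo k :: .hi k :: Lr p R : List (Lb p.n p.m)) :=
          (List.singleton_sublist.2 (List.mem_cons_of_mem _ hyL)).cons_cons _
        exact h3.trans (List.sublist_append_right _ _)
      have nx : ∀ l : Fin p.m, ¬ ((.lo k : Lb p.n p.m) = .lo l ∧ y = .hi l) := by
        rintro l ⟨h', h⟩
        injection h' with h'
        exact hyk (by rw [h, h'])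
      have nx' : ∀ l : Fin p.m, ¬ ((.hi k : Lb p.n p.m) = .lo l ∧ y = .hi l) := by
        rintro l ⟨h', _⟩; cases h'
      have e1 : K (.lo k) y = cA := by
        refine tendsto_nhds_unique (hK _ _ s1) ?_
        have := rr_lim Λ (upd p k 0) (upd_tp hlo 0) (upd_tp hy 0) hA
        exact this.congr fun a => by rw [cen_other Λ (upd p k 0) _ a nx]
      have e2 : K (.hi k) y = cB := by
        refine tendsto_nhds_unique (hK _ _ hxy) ?_
        have := rr_lim Λ (upd p k 0) (upd_tp hhi 0) (upd_tp hy 0) hB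
        exact this.congr fun a => by rw [cen_other Λ (upd p k 0) _ a nx']
      have e3 : ((√2 : ℝ) : ℂ) * K (.lo k) y - K (.hi k) y = cC := by
        rw [e1, e2]
        linear_combination (-1 : ℂ) * hc
      rw [e3]
      have := rr_lim Λ (upd p k 1) (upd_tp hhi 1) (upd_tp hy 1) hC
      exact this.congr fun a => by rw [cen_other Λ (upd p k 1) _ a nx']
    · rw [if_neg hxk]
      refine (hK _ _ hxy).congr fun a => ?_
      rw [upd_rr hxk a 0 1, upd_rr hyk a 0 1, upd_Kz hxk hyk _ a 0 1]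

end

end Vale.Agent.P144Q.E.JF
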