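import Vale.Agent.P144Q.K12
import Vale.Agent.P144.H436.JSrc
import Vale.Agent.P144X.F1
import Vale.Agent.P144X.F2

/-!
Directions of the energies in a general domain: the relation between the kernels.
-/

set_option linter.all false

namespace Vale.Agent.P144Q.G.JF

open Filter Topology Complex Metric Vale.Agent.P144 Vale.Agent.P144.H170
open Vale.Agent.P144.H436 (upd upd_j Vv Vv_sum)

variable {Ω : Dom} {Λ : ℝ → Finset Site}

section

variable {p : Pts} {j : Fin p.n}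

theorem lim_of_solJ {G : Filter ℝ} {κ : Type} [Fintype κ] {ζ : κ → ℂ} {ω : ℂ}
    (hζ : ∀ p, ζ p ∈ Ω.D) (hω : ω ∈ Ω.D) (hinj : Function.Injective ζ) (hne : ∀ p, ζ p ≠ ω)
    {F : ℝ → ℂ} {Φ : (ℂ → ℂ) → ℂ}
    (hΦ : ∀ q q' : ℂ → ℂ, ((∀ z ∈ Ω.D, q z = q' z) ∨ ∀ z ∈ Ω.D, q z = -q' z) → Φ q = Φ q')
    (h : ∀ l : Ultrafilter ℝ, (l : Filter ℝ) ≤ G → ∃ q, Sol Ω ζ ω q ∧ Tendsto F l (𝓝 (Φ q)))
    {q0 : ℂ → ℂ} (hq0 : Sol Ω ζ ω q0) : Tendsto F G (𝓝 (Φ q0)) := by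
  rw [tendsto_iff_ultrafilter]
  intro l hl
  obtain ⟨q, hq, hF⟩ := h l hl
  rw [← hΦ q q0 (sol_unique hζ hω hinj hne hq hq0)]
  exact hF

variable (hX : SXj Ω) (hL : Fam0 Ω.D Λ) (hp : Good0 Ω.D p) (k : Fin p.m)

include hX hL hp

theorem lo_src {S : {i // i ≠ j} → Prop} {S' : Unit → Prop}
    (hS : p.y k ∈ VS S S' (fun i : {i // i ≠ j} => p.x i) fun _ : Unit => p.x j)
    {q0 : ℂ → ℂ} (hq0 : Sol Ω (fun i : {i // i ≠ j} => p.x i) (p.x j) q0) :
    Tendsto (fun a : ℝ => AL.rho p a (.lo k) * AL.rho p a (.src j) *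
      (Kn Λ p a (.lo k) (.src j) : ℂ) / a) (𝓝[>] 0) (𝓝 (Vv p j k S S' q0 phA)) := by
  have hdia : ∀ᶠ a in 𝓝[>] (0:ℝ), ∀ y : Pt, |y.1 - (fl a (p.y k)).1| ≤ (1:ℕ) →
      |y.2 - (fl a (p.y k)).2| ≤ (1:ℕ) → y ∈ Λ a :=
    Appr.deep AL.idt hL (hp.2.1 k) (AL.flt _) 1
  have hinj : Function.Injective (fun i : {i // i ≠ j} => p.x i) := fun i i' h => Subtype.ext (by
      by_contra hc
      exact g_ne hp hc h)
  refine lim_of_solJ (κ := {i // i ≠ j}) (ζ := fun i => p.x i) (ω := p.x j)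
      (fun i => hp.1 i) (hp.1 j) hinj (fun i => g_ne hp i.2)
      (fun q q' h => sol_phi (j := j) hp k phA (RS S S' (fun i : {i // i ≠ j} => p.x i)
        (fun _ : Unit => p.x j) (p.y k)) (rtu AL.z0) h) ?_ hq0
  intro l hl
  obtain ⟨q, hq⟩ := pkj_exists j hX hL hp l hl
  refine ⟨q, hq.sol, ?_⟩
  refine kern_lim hl hp k (Or.inl rfl) hq.slim.A hq hS (fun a => Or.inl ⟨rfl, rfl⟩)
    (fun a => rfl) (fun a => rfl) ?_
  filter_upwards [hl hdia] with a ha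
  rw [Kn_src]
  unfold jA AL.xA
  have : fl a (p.y k) ∈ Λ a := ha _ (by simp) (by simp)
  rw [if_pos this]
  rfl

theorem hi_src0 (hj : p.j k = 0) {S : {i // i ≠ j} → Prop} {S' : Unit → Prop}
    (hS : p.y k ∈ VS S S' (fun i : {i // i ≠ j} => p.x i) fun _ : Unit => p.x j)
    {q0 : ℂ → ℂ} (hq0 : Sol Ω (fun i : {i // i ≠ j} => p.x i) (p.x j) q0) :
    Tendsto (fun a : ℝ => AL.rho p a (.hi k) * AL.rho p a (.src j) *
      (Kn Λ p a (.hi k) (.src j) : ℂ) / a) (𝓝[>] 0) (𝓝 (Vv p j k S S' q0 phB)) := by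
  have hdia : ∀ᶠ a in 𝓝[>] (0:ℝ), ∀ y : Pt, |y.1 - (fl a (p.y k)).1| ≤ (1:ℕ) →
      |y.2 - (fl a (p.y k)).2| ≤ (1:ℕ) → y ∈ Λ a :=
    Appr.deep AL.idt hL (hp.2.1 k) (AL.flt _) 1
  have hinj : Function.Injective (fun i : {i // i ≠ j} => p.x i) := fun i i' h => Subtype.ext (by
      by_contra hc
      exact g_ne hp hc h)
  refine lim_of_solJ (κ := {i // i ≠ j}) (ζ := fun i => p.x i) (ω := p.x j)
      (fun i => hp.1 i) (hp.1 j) hinj (fun i => g_ne hp i.2)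
      (fun q q' h => sol_phi (j := j) hp k phB (RS S S' (fun i : {i // i ≠ j} => p.x i)
        (fun _ : Unit => p.x j) (p.y k)) (rtu AL.z0) h) ?_ hq0
  intro l hl
  obtain ⟨q, hq⟩ := pkj_exists j hX hL hp l hl
  refine ⟨q, hq.sol, ?_⟩
  have hcn : ∀ a, AL.cnp p a (.hi k) =
      (((fl a (p.y k)).1 + 1, (fl a (p.y k)).2), fl a (p.y k)) := by
    intro a
    show AL.eHi _ _ = _
    unfold AL.eHi dir
    rw [if_pos hj]
    ext <;> simp
  refine kern_lim hl hp k (Or.inr rfl) hq.slim.B hq hS (fun a => Or.inr ⟨?_, rfl⟩)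
    (fun a => rfl) (fun a => ?_) ?_
  · rw [hcn]
  · simp only [AL.wpos, if_pos hj]
  filter_upwards [hl hdia] with a ha
  rw [Kn_src, hcn]
  unfold jB AL.xB
  have : (((fl a (p.y k)).1 + 1, (fl a (p.y k)).2) : Site) ∈ Λ a :=
    ha _ (by simp) (by simp)
  rw [if_pos this]

theorem hi_src1 (hj : p.j k ≠ 0) {S : {i // i ≠ j} → Prop} {S' : Unit → Prop}
    (hS : p.y k ∈ VS S S' (fun i : {i // i ≠ j} => p.x i) fun _ : Unit => p.x j)
    {q0 : ℂ → ℂ} (hq0 : Sol Ω (fun i : {i // i ≠ j} => p.x i) (p.x j) q0) :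
    Tendsto (fun a : ℝ => AL.rho p a (.hi k) * AL.rho p a (.src j) *
      (Kn Λ p a (.hi k) (.src j) : ℂ) / a) (𝓝[>] 0) (𝓝 (Vv p j k S S' q0 phC)) := by
  have hdia : ∀ᶠ a in 𝓝[>] (0:ℝ), ∀ y : Pt, |y.1 - (fl a (p.y k)).1| ≤ (1:ℕ) →
      |y.2 - (fl a (p.y k)).2| ≤ (1:ℕ) → y ∈ Λ a :=
    Appr.deep AL.idt hL (hp.2.1 k) (AL.flt _) 1
  have hinj : Function.Injective (fun i : {i // i ≠ j} => p.x i) := fun i i' h => Subtype.ext (by
      by_contra hc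
      exact g_ne hp hc h)
  refine lim_of_solJ (κ := {i // i ≠ j}) (ζ := fun i => p.x i) (ω := p.x j)
      (fun i => hp.1 i) (hp.1 j) hinj (fun i => g_ne hp i.2)
      (fun q q' h => sol_phi (j := j) hp k phC (RS S S' (fun i : {i // i ≠ j} => p.x i)
        (fun _ : Unit => p.x j) (p.y k)) (rtu AL.z0) h) ?_ hq0
  intro l hl
  obtain ⟨q, hq⟩ := pkj_exists j hX hL hp l hl
  refine ⟨q, hq.sol, ?_⟩
  have hcn : ∀ a, AL.cnp p a (.hi k) =
      (((fl a (p.y k)).1, (fl a (p.y k)).2 + 1), fl a (p.y k)) := by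
    intro a
    show AL.eHi _ _ = _
    unfold AL.eHi dir
    rw [if_neg hj]
    ext <;> simp
  refine kern_lim hl hp k (Or.inl rfl) hq.slim.C hq hS (fun a => Or.inl ⟨?_, rfl⟩)
    (fun a => rfl) (fun a => ?_) ?_
  · rw [hcn]
  · simp only [AL.wpos, if_neg hj]
  filter_upwards [hl hdia] with a ha
  rw [Kn_src, hcn]
  unfold jC AL.xC
  have : (((fl a (p.y k)).1, (fl a (p.y k)).2 + 1) : Site) ∈ Λ a :=
    ha _ (by simp) (by simp)
  rw [if_pos this]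

end

open AL in
/-- The relations between the limits of the kernels. -/
theorem kj (hX : SXj Ω) (hL : Fam0 Ω.D Λ) (p : Pts) (hp : Good0 Ω.D p) (k : Fin p.m) :
    E.JF.KJ Λ p k := by
  have j0 : (upd p k 0).j k = 0 := Function.update_self _ _ _
  have j1 : (upd p k 1).j k ≠ 0 := by
    have : (upd p k 1).j k = 1 := Function.update_self _ _ _
    rw [this]; decide
  refine ⟨fun y hlo hhi hy => ?_, ?_⟩
  · have hen : ∀ l : Fin p.m, l ≠ k → (y = .lo l ∨ y = .hi l) → ∃ cA cB cC : ℂ,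
        cB + cC = (√2 : ℝ) * cA ∧
        Tendsto (fun a : ℝ => rho (upd p k 0) a (.lo k) * rho (upd p k 0) a y *
          (Kn Λ (upd p k 0) a (.lo k) y : ℂ) / a) (𝓝[>] 0) (𝓝 cA) ∧
        Tendsto (fun a : ℝ => rho (upd p k 0) a (.hi k) * rho (upd p k 0) a y *
          (Kn Λ (upd p k 0) a (.hi k) y : ℂ) / a) (𝓝[>] 0) (𝓝 cB) ∧
        Tendsto (fun a : ℝ => rho (upd p k 1) a (.hi k) * rho (upd p k 1) a y *
          (Kn Λ (upd p k 1) a (.hi k) y : ℂ) / a) (𝓝[>] 0) (𝓝 cC) := by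
      intro l hl hyl
      obtain ⟨T, hT, h⟩ := C.JF.k3J (p := p) (k := k) (l := l) (y := y) hL hp hl.symm hyl
      refine ⟨T (0, 0), T (1, 0), T (0, 1), hT, ?_, ?_, ?_⟩
      · exact h (Function.update p.j k 0) (upd_j hl 0) (.lo k) (0, 0) _ _
          (H135.ct_lo (p := upd p k 0) k)
      · exact h (Function.update p.j k 0) (upd_j hl 0) (.hi k) (1, 0) _ _
          (H135.ct_hi0 (p := upd p k 0) j0)
      · exact h (Function.update p.j k 1) (upd_j hl 1) (.hi k) (0, 1) _ _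
          (H135.ct_hi1 (p := upd p k 1) j1)
    cases y with
    | tp c => exact absurd trivial hy
    | lo l => exact hen l (fun h => hlo (by rw [h])) (Or.inl rfl)
    | hi l => exact hen l (fun h => hhi (by rw [h])) (Or.inr rfl)
    | src i =>
      obtain ⟨S, S', hS⟩ := exists_pattern (ζ := fun i' : {i' // i' ≠ i} => p.x i')
        (ω := fun _ : Unit => p.x i) (z := p.y k) (fun i' => g_ney hp k i')
        (fun _ => g_ney hp k i)
      obtain ⟨q0, hq0⟩ := pkj_exists i hX hL hp (Ultrafilter.of (𝓝[>] (0:ℝ))) (Ultrafilter.of_le _)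
      exact ⟨Vv p i k S S' q0 phA, Vv p i k S S' q0 phB, Vv p i k S S' q0 phC,
        Vv_sum k S S' q0, lo_src (p := upd p k 0) hX hL hp k hS hq0.sol,
        hi_src0 (p := upd p k 0) hX hL hp k j0 hS hq0.sol, hi_src1 (p := upd p k 1) hX hL hp k j1 hS hq0.sol⟩
  · obtain ⟨T, hT, h⟩ := C.JF.k4J (p := p) hL hp k
    have e : T (0, 1) = -T (1, 0) := by linear_combination hT
    refine ⟨T (1, 0), ?_, ?_⟩
    · exact h (Function.update p.j k 0) (1, 0) _ _ (H135.ct_hi0 (p := upd p k 0) j0)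
    · rw [← e]
      exact h (Function.update p.j k 1) (0, 1) _ _ (H135.ct_hi1 (p := upd p k 1) j1)

end Vale.Agent.P144Q.G.JF
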