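import Vale.Agent.P144X.F4
import Vale.Agent.P144X.P.Fin

/-!
The limits do not depend on the directions of the energies.
-/

namespace Vale.Agent.P144X

open Vale.Agent.P144

theorem jind {J : ℝ} (hJ : 0 < J) {D : Set ℂ} {b : Option (ℝ → Config)} (h : P144S.Nice D b)
    {p : Pts} (hp : Good D p) {c : ℝ} (hc : Lim (crit J D b) p c) (j : Fin p.m → Fin 2) :
    Lim (crit J D b) { p with j := j } c :=
  P.jind_of hJ (fun _ hl hs _ hp _ hc j => jfree3 hJ hl hs hp hc j) h hp hc j

end Vale.Agent.P144X
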