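import Vale.Agent.P144X.Pos.Free
import Vale.Agent.P144S.Nice

/-!
The limits of the spin correlations are positive for the plus boundary condition, and for the
free boundary condition if the number of spins is even.
-/

namespace Vale.Agent.P144X

open Finset Filter Topology Vale.Agent.P144 Vale.Agent.P144Z Vale.Agent.P144Q Vale.Agent.P144S

theorem P.lim_div {J R : ℝ} (hR : 0 < R) {D : Set ℂ} {p : Pts} {c : ℝ}
    (h : Lim (crit J ((fun z => z / (R : ℂ)) '' D) (some fun _ _ => true)) (B.shr p R) c) :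
    Lim (crit J D (some fun _ _ => true)) p (((R ^ (-(1 / 8) : ℝ)) ^ p.n * R⁻¹ ^ p.m) * c) := by
  refine ((Tendsto.comp h (B.div_lim hR)).const_mul _).congr' ?_
  filter_upwards [self_mem_nhdsWithin] with a ha
  have e : crit J ((fun z => z / (R : ℂ)) '' D) (some fun _ _ => true) (a / R) =
      crit J D (some fun _ _ => true) a := by
    unfold crit inDom
    rw [B.disc_div hR]
    rfl
  simp only [Function.comp, e]
  exact (B.corr_shr (E := crit J D (some fun _ _ => true) a)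
    (B.gibbs_cmul J 0 (fun _ => 0) (Kc / J) (some fun _ => true) (disc D a)) p ha hR).symm

theorem P.corr_GP (J : ℝ) (Λ : ℝ → Finset Site) {p : Pts} (hx : Function.Injective p.x)
    (hm : p.m = 0) {a : ℝ} (ha : 0 < a) :
    corr a (pl J (Λ a)) p = GP J Λ (univ.image p.x) a := by
  have : IsEmpty (Fin p.m) := ⟨fun k => by have := k.2; omega⟩
  have e : a ^ (-((univ.image p.x).card : ℝ) / 8) = (a ^ (-(1 / 8) : ℝ)) ^ p.n := by
    rw [AL.card_im p hx, ← Real.rpow_natCast, ← Real.rpow_mul ha.le]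
    exact congrArg _ (by ring)
  unfold corr GP sP pl
  rw [e, ← B.gibbs_cmul]
  refine congrArg _ (funext fun σ => ?_)
  rw [Multiset.map_map, ← prod_eq_multiset_prod, prod_image hx.injOn,
    Finset.univ_eq_empty (α := Fin p.m), prod_empty, mul_one, prod_mul_distrib, prod_const,
    card_univ, Fintype.card_fin]
  rfl

/-- Positivity for the plus boundary condition. -/
theorem P.pos_plus {J : ℝ} (hJ : 0 < J) {D : Set ℂ} (h : Lip4 D) (hs : IsSimplyConnected D)
    {p : Pts} (hp : Good D p) (hm : p.m = 0) {c : ℝ}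
    (hc : Lim (crit J D (some fun _ _ => true)) p c) : 0 < c := by
  obtain ⟨t, R0, hsm⟩ := U.exists_small h.2.1
  have h' := L.lip4_div R0 h
  have hs' := U.sc_div R0 hs
  have hp' := B.good_shr R0 hp
  obtain ⟨c', hc'⟩ := (sfinP J hJ _ h' hs').1 _ hp'
  rw [tendsto_nhds_unique hc (P.lim_div R0 hc')]
  refine mul_pos (by positivity) ?_
  have hm' : (B.shr p t).m = 0 := hm
  generalize B.shr p t = p' at hp' hc' hm'
  generalize (fun z => z / (t : ℂ)) '' D = D' at hsm h' hs' hp' hc'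
  have h3 := L.lip3_of_lip4 h'
  obtain ⟨Ω, rfl⟩ := U.dom3 h3 hs' hsm
  obtain ⟨Ω', hΩ'⟩ := U.dom3 (U.lip3_rc h3) (U.sc_rc hs') (U.small_rc hsm)
  obtain ⟨k, -⟩ := R.map3 h3 hs'
  have hF := L.latP _ h' ⟨k⟩
  have hx : Function.Injective p'.x := fun i i' h =>
    Sum.inl_injective (hp'.2.2.2 (by simpa using h))
  obtain ⟨g, g0, hg⟩ := F.normX K.kw K.blk (F.all (V.sand K.blk)) B.rat K.one (B.odd K.kw K.blk)
    hJ Ω Ω' hΩ' (L.out _ h3 ⟨k⟩) ⟨_, hF⟩ (univ.image p'.x) fun y hy => by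
      obtain ⟨i, -, rfl⟩ := mem_image.1 hy
      exact hp'.2.1 i
  refine g0.trans_eq (tendsto_nhds_unique_of_eventuallyEq (hg _ hF) hc' ?_)
  filter_upwards [self_mem_nhdsWithin] with a ha
  exact (P.corr_GP J (disc Ω.D) hx hm' ha).symm

/-- **Positivity of the limits of the spin correlations.** -/
theorem pos {J : ℝ} (hJ : 0 < J) {D : Set ℂ} {b : Option (ℝ → Config)} (h : Nice D b) {p : Pts}
    (hp : Good D p) (hm : p.m = 0) {c : ℝ} (hc : Lim (crit J D b) p c)
    (hb : (b = none ∧ Even p.n) ∨ b = some fun _ _ => true) : 0 < c := by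
  obtain ⟨hs, ⟨h, -⟩ | ⟨h, e⟩⟩ := h
  · have h4 : Lip4 D := by
      rcases h with h | ⟨o, bd, cv⟩ | h | ⟨h, c, hc, w⟩ | ⟨h, w⟩
      exacts [L.lip4_of_C1 h, L.lip4_of_convex o bd cv, L.lip4_of_isLip le_rfl h,
        L.lip4_of_PC1 h fun z hz => ⟨c, hc, w z hz⟩, L.lip4_of_polygon h w]
    rcases hb with ⟨rfl, he⟩ | rfl
    exacts [P.pos_free hJ (L.lip3_of_lip4 h4) hs hp hm he hc, P.pos_plus hJ h4 hs hp hm hc]
  · subst e
    refine P.pos_free hJ ?_ hs hp hm (hb.resolve_right (by simp)).2 hc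
    rcases h with h | ⟨h | h, c, hc, w⟩
    exacts [U.lip3_of_isLip le_rfl h, U.lip3_of_PC1 h fun z hz => ⟨c, hc, w z hz⟩,
      U.lip3_of_polygon h fun z hz => ⟨c, hc, w z hz⟩]

end Vale.Agent.P144X
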