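import Vale.Agent.P144T.C.K34
import Vale.Agent.P144.H135.Jind2

/-!
The kernels between energies in a multiply connected domain: dependence on the directions.
-/

set_option linter.all false

namespace Vale.Agent.P144T.C.JF

open Finset Vale.Agent.P144 Filter Topology
open Vale.Agent.P144.H436 (Rp_rM)
open Vale.Agent.P144.H170 (Pt pt rM pos RR RS gs VS phA phB phC phE Mk notMem_Mk)
open Vale.Agent.P144.H135

variable {Ω : Dom} {Λ : ℝ → Finset Site} {p : Pts} {x y : AL.Lb p.n p.m} {k l : Fin p.m}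
  {u0 u1 : Site} {s t s1 t1 : ℝ}

/-- The value at the source. -/
theorem src_WfL {N : Finset Site} {R : Multiset Site} {c : AL.Cn} :
    AL.Wf N R [c, c] = AL.ep c c := by
  rw [Wf_two, src_one, mul_one]

/-- The limit of the kernel at the target, explicit form. -/
theorem tgtJ (hL : Fam0 Ω.D Λ) (hp : Good0 Ω.D p) (hx : Ctp p x k u0 s t) (hy : Ctp p y l u1 s1 t1)
      (hz : p.y k ∈ (Ω.D \ {p.y l}) \ Mk p.x w0)
      {U : Filter ℝ} (hU : U ≤ 𝓝[>] 0) {δ : ℝ} {S : Fin p.n → Prop} {QA QB QC QE : Pt → ℝ}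
      {κ0 : ℂ} {q Y : ℂ → ℂ} (hB : BLim Ω U (fun a => a) (rz p.x) p.x (cz (p.y l) u1) (p.y l) δ
      (fun a => bA (Λ a) (fun i => rz p.x i a) (cz (p.y l) u1 a))
      (fun a => bB (Λ a) (fun i => rz p.x i a) (cz (p.y l) u1 a))
      (fun a => bC (Λ a) (fun i => rz p.x i a) (cz (p.y l) u1 a))
      (fun a => bE (Λ a) (fun i => rz p.x i a) (cz (p.y l) u1 a)) S QA QB QC QE κ0 q Y) :
      Tendsto (fun a : ℝ => a⁻¹ * (sg0 S (fun i => rz p.x i a) (cz (p.y l) u1 a) *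
        Kn Λ p a x y) - phT u0 (q (p.y k) / RR a (fun i => rz p.x i a) (fun q => v0 q a)
        (pos a (fl a (p.y k)) s t))) U (𝓝 0) := by
  have hKn : ∀ a : ℝ, Kn Λ p a x y = AL.Wf (Λ a) (rM fun i => rz p.x i a)
        [cz (p.y k) u0 a, cz (p.y l) u1 a] := by
    intro a
    unfold Kn
    rw [Rp_rM, hx.c, hy.c]
    rfl
  rcases hx.h with ⟨rfl, rfl, rfl⟩ | ⟨rfl, rfl, rfl⟩ | ⟨rfl, rfl, rfl⟩
  · rw [phT_A]
    have h1 := (hB.slim.A _ hz).comp (seq_nf ((AL.flt (p.y k)).mono_left hU))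
    refine h1.congr' ?_
    filter_upwards [(dia_ev hL (hp.2.1 k) (0, 0) (Or.inl rfl)).filter_mono hU] with a ha
    have e0 : fl a (p.y k) + (0, 0) = fl a (p.y k) := by ext <;> simp
    rw [e0] at ha
    simp only [Function.comp_apply]
    rw [eA_Wf _ _ _ ha, hKn a]
    have e1 : cz (p.y k) (0, 0) a = (fl a (p.y k), fl a (p.y k)) := by unfold cz; rw [e0]
    rw [e1]
  · rw [phT_B]
    have h1 := (hB.slim.B _ hz).comp (seq_nf ((AL.flt (p.y k)).mono_left hU))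
    refine h1.congr' ?_
    filter_upwards [(dia_ev hL (hp.2.1 k) (1, 0) (Or.inr (Or.inl rfl))).filter_mono hU] with a ha
    have e0 : fl a (p.y k) + (1, 0) = ((fl a (p.y k)).1 + 1, (fl a (p.y k)).2) := by ext <;> simp
    rw [e0] at ha
    simp only [Function.comp_apply]
    rw [eB_Wf _ _ _ ha, hKn a]
    have e1 : cz (p.y k) (1, 0) a = (((fl a (p.y k)).1 + 1, (fl a (p.y k)).2), fl a (p.y k)) := by
      unfold cz; rw [e0]
    rw [e1]
  · rw [phT_C]
    have h1 := (hB.slim.C _ hz).comp (seq_nf ((AL.flt (p.y k)).mono_left hU))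
    refine h1.congr' ?_
    filter_upwards [(dia_ev hL (hp.2.1 k) (0, 1) (Or.inr (Or.inr rfl))).filter_mono hU] with a ha
    have e0 : fl a (p.y k) + (0, 1) = ((fl a (p.y k)).1, (fl a (p.y k)).2 + 1) := by ext <;> simp
    rw [e0] at ha
    simp only [Function.comp_apply]
    rw [eC_Wf _ _ _ ha, hKn a]
    have e1 : cz (p.y k) (0, 1) a = (((fl a (p.y k)).1, (fl a (p.y k)).2 + 1), fl a (p.y k)) := by
      unfold cz; rw [e0]
    rw [e1]

/-- **Two energies**, with the dependence on the direction of the first one. -/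
theorem k3J (hL : Fam0 Ω.D Λ) (hp : Good0 Ω.D p) (hkl : k ≠ l) (hy : y = .lo l ∨ y = .hi l) :
    ∃ T : Site → ℂ, T (1, 0) + T (0, 1) = ((√2 : ℝ) : ℂ) * T (0, 0) ∧
    ∀ j' : Fin p.m → Fin 2, j' l = p.j l → ∀ (x : AL.Lb p.n p.m) (u0 : Site) (s t : ℝ),
      Ctp { p with j := j' } x k u0 s t → Tendsto (fun a : ℝ =>
      AL.rho { p with j := j' } a x * AL.rho { p with j := j' } a y *
        (Kn Λ { p with j := j' } a x y : ℂ) / a) (𝓝[>] 0) (𝓝 (T u0)) := by
  obtain ⟨u1, s1, t1, cy⟩ := exists_Ctp hy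
  obtain ⟨δ, G⟩ := geo_of hp l
  obtain ⟨S, hS⟩ := G.pat hL
  obtain ⟨QA, QB, QC, QE, κ0, K⟩ := exists_ker u1 cy.cnr
  have hzM := nM_of hp k
  have hz : p.y k ∈ (Ω.D \ {p.y l}) \ Mk p.x w0 :=
    ⟨⟨hp.2.1 k, fun h => hkl (Sum.inr_injective (hp.2.2 (by simpa using h)))⟩, hzM⟩
  obtain ⟨S', S'', hS'⟩ := H170.exists_pattern (ζ := p.x) (ω := w0) (z := p.y k)
    (notMem_Mk.1 hzM).1 (fun q => q.elim)
  have e'' : S'' = F0 := funext fun q => q.elim
  rw [e''] at hS'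
  have hzl : p.y l ∈ VS S F0 p.x w0 := hS (Metric.mem_closedBall_self (by
    have := G.δ0; positivity))
  have hU0 := Ultrafilter.of_le (𝓝[>] (0:ℝ))
  obtain ⟨q, Y, hB⟩ := G.blim hL hU0 cy.cnr K hS
  refine ⟨fun u => RS S F0 p.x w0 (p.y l) * (RS S' F0 p.x w0 (p.y k) *
    (phT u (q (p.y k) / RS S' F0 p.x w0 (p.y k)) : ℂ)), ?_, ?_⟩
  · have h1 := phT_sum (q (p.y k) / RS S' F0 p.x w0 (p.y k))
    have h2 : ((phT (1, 0) (q (p.y k) / RS S' F0 p.x w0 (p.y k)) : ℝ) : ℂ) +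
        ((phT (0, 1) (q (p.y k) / RS S' F0 p.x w0 (p.y k)) : ℝ) : ℂ) =
        ((√2 : ℝ) : ℂ) * ((phT (0, 0) (q (p.y k) / RS S' F0 p.x w0 (p.y k)) : ℝ) : ℂ) := by
      rw [← Complex.ofReal_add, ← Complex.ofReal_mul, h1]
    linear_combination (RS S F0 p.x w0 (p.y l) * RS S' F0 p.x w0 (p.y k)) * h2
  intro j' hj x u0 s t cx
  have cy' := cy.congr_j hy hj
  have hp' : Good0 Ω.D { p with j := j' } := hp
  refine (tendsto_iff_ultrafilter _ _ _).2 fun V hV => ?_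
  obtain ⟨q', Y', hB'⟩ := G.blim hL hV cy.cnr K hS
  obtain ⟨hq, -⟩ := blim_unique (G.pos hL hU0 u1) hS hB hB'
  rw [hq _ hz.1.1 hz.1.2]
  have h1 := tgtJ (p := { p with j := j' }) hL hp' cx cy' hz hV hB'
  have h2 := rr_mul (a := fun a : ℝ => a) hV (r := rz p.x) (ζ := p.x)
    (fun i => (AL.flt (p.x i)).mono_left hV) (w := fun a => fl a (p.y k))
    ((AL.flt (p.y k)).mono_left hV) hS' cx.hs h1
  have h3 := (src_rho (p := { p with j := j' }) cy' hzl hV).mul h2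
  refine h3.congr' (Eventually.of_forall fun a => ?_)
  rw [← rho_RR (p := { p with j := j' }) a cx]
  have h5 : (sg0 S (fun i => rz p.x i a) (cz (p.y l) u1 a) : ℂ) *
      sg0 S (fun i => rz p.x i a) (cz (p.y l) u1 a) = 1 := by
    rw [← Complex.ofReal_mul, sg0_sq]; simp
  push_cast
  rw [div_eq_mul_inv]
  linear_combination (AL.rho { p with j := j' } a y * AL.rho { p with j := j' } a x * (a:ℂ)⁻¹ *
    (Kn Λ { p with j := j' } a x y : ℂ)) * h5

/-- **The two corners of an energy**, with the dependence on the direction. -/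
theorem k4J (hL : Fam0 Ω.D Λ) (hp : Good0 Ω.D p) (k : Fin p.m) :
    ∃ T : Site → ℂ, T (1, 0) + T (0, 1) = 0 ∧
    ∀ (j' : Fin p.m → Fin 2) (u0 : Site) (s t : ℝ), Ctp { p with j := j' } (.hi k) k u0 s t →
    Tendsto (fun a : ℝ => AL.rho { p with j := j' } a (.lo k) * AL.rho { p with j := j' } a (.hi k) *
      ((Kn Λ { p with j := j' } a (.lo k) (.hi k) -
      AL.sgn { p with j := j' } a k * AL.Wf (Λ a) 0 [AL.cnp { p with j := j' } a (.lo k),
        AL.cnp { p with j := j' } a (.hi k)] : ℝ) : ℂ) / a) (𝓝[>] 0) (𝓝 (T u0)) := by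
  have cx := ct_lo (p := p) k
  obtain ⟨δ, G⟩ := geo_of hp k
  obtain ⟨S, hS⟩ := G.pat hL
  obtain ⟨QA, QB, QC, QE, κ0, K⟩ := exists_ker (0, 0) cx.cnr
  have G0 := G.empty
  have hδ := G.δ0
  have hS0 : Metric.closedBall (p.y k) (24 * δ) ⊆ VS F0 F0 w0 w0 := fun z _ =>
    ⟨fun q => q.elim, fun q => q.elim⟩
  have hzb : p.y k ∈ Metric.closedBall (p.y k) (24 * δ) := Metric.mem_closedBall_self (by positivity)
  have hzo : p.y k ∈ Metric.ball (p.y k) (24 * δ) := Metric.mem_ball_self (by positivity)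
  have hz : p.y k ∈ VS S F0 p.x w0 := hS hzb
  have hU0 := Ultrafilter.of_le (𝓝[>] (0:ℝ))
  obtain ⟨q, Y, hB⟩ := G.blim hL hU0 cx.cnr K hS
  obtain ⟨q0, Y0, hB0⟩ := G0.blim hL hU0 cx.cnr K hS0
  have e00 : ∀ a, fl a (p.y k) + (0, 0) = fl a (p.y k) := fun a => by ext <;> simp
  have ecz : ∀ a, cz (p.y k) (0, 0) a = (fl a (p.y k), fl a (p.y k)) := fun a => by
    unfold cz; rw [e00]
  have sg1 : ∀ a, sg0 F0 (fun q => rz w0 q a) (cz (p.y k) (0, 0) a) = 1 := by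
    intro a
    unfold sg0 gs
    simp
  have gr1 : ∀ (a t : ℝ), gr F0 (fun q => rz w0 q a) t = 1 := by
    intro a t
    unfold gr gs
    simp
  have sgr : ∀ a, sg0 S (fun i => rz p.x i a) (cz (p.y k) (0, 0) a) =
      gr S (fun i => rz p.x i a) ((fl a (p.y k)).1 + 1 / 4) := by
    intro a
    rw [cx.sg0]
    unfold gr
    have e : (fun q : Empty => (q.elim : Site)) = fun q => v0 q a := by
      funext q; exact q.elim
    rw [e]
    rfl
  -- the A-components agree at the source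
  have hA : phA (Y (p.y k)) = phA (Y0 (p.y k)) := by
    have h1 := (hB.A _ hzo).comp (seq_nf ((AL.flt (p.y k)).mono_left hU0))
    have h2 := (hB0.A _ hzo).comp (seq_nf ((AL.flt (p.y k)).mono_left hU0))
    refine tendsto_nhds_unique h1 (h2.congr' ?_)
    filter_upwards [(dia_ev hL (hp.2.1 k) (0, 0) (Or.inl rfl)).filter_mono hU0] with a g2
    rw [e00] at g2
    simp only [Function.comp_apply]
    rw [eA_Wf _ _ _ g2, eA_Wf _ _ _ g2, sg1, gr1, sgr, ecz, src_WfL, src_WfL]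
    linear_combination (-(a⁻¹ * AL.ep (fl a (p.y k), fl a (p.y k)) (fl a (p.y k), fl a (p.y k)))) *
      gr_sq S (fun i => rz p.x i a) ((fl a (p.y k)).1 + 1 / 4)
  refine ⟨fun u => -(RS S F0 p.x w0 (p.y k) * (RS S F0 p.x w0 (p.y k)) *
    ((phT u (Y (p.y k)) - phT u (Y0 (p.y k)) : ℝ) : ℂ)), ?_, ?_⟩
  · have h1 := phT_sum (Y (p.y k))
    have h2 := phT_sum (Y0 (p.y k))
    rw [phT_A] at h1 h2
    have h3 : (phT (1, 0) (Y (p.y k)) - phT (1, 0) (Y0 (p.y k)) : ℝ) =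
        -(phT (0, 1) (Y (p.y k)) - phT (0, 1) (Y0 (p.y k))) := by
      rw [hA] at h1; linarith
    simp only
    rw [h3]
    push_cast
    ring
  intro j' u0 s t ch
  have cx' := ct_lo (p := { p with j := j' }) k
  refine (tendsto_iff_ultrafilter _ _ _).2 fun V hV => ?_
  obtain ⟨q', Y', hB'⟩ := G.blim hL hV cx.cnr K hS
  obtain ⟨q0', Y0', hB0'⟩ := G0.blim hL hV cx.cnr K hS0
  obtain ⟨-, hY⟩ := blim_unique (G.pos hL hU0 (0, 0)) hS hB hB'
  obtain ⟨-, hY0⟩ := blim_unique (G0.pos hL hU0 (0, 0)) hS0 hB0 hB0'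
  rw [hY _ hzo, hY0 _ hzo]
  have r1 := src_rho (p := { p with j := j' }) cx' hz hV
  have r2 := src_rho (p := { p with j := j' }) ch hz hV
  have hKn : ∀ a : ℝ, Kn Λ { p with j := j' } a (.lo k) (.hi k) =
      -AL.Wf (Λ a) (rM fun i => rz p.x i a)
      [cz (p.y k) u0 a, cz (p.y k) (0, 0) a] := by
    intro a
    have h1 : Kn Λ { p with j := j' } a (.lo k) (.hi k) =
        AL.Wf (Λ a) (rM fun i => rz p.x i a)
        [AL.cnp { p with j := j' } a (.lo k), AL.cnp { p with j := j' } a (.hi k)] := by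
      unfold Kn
      rw [Rp_rM]
      rfl
    rw [h1, cx'.c, ch.c]
    refine AL.Wf_swap _ _ (cz_cnr cx.cnr _ _) (cz_cnr ch.cnr _ _) ?_
    intro h
    unfold cz at h
    have h4 := (Prod.mk.injEq _ _ _ _ ▸ h).1
    have h5 := add_left_cancel h4
    rcases hi_type ch with ⟨h6, -⟩ | ⟨h6, -⟩ <;> rw [h6] at h5 <;> simp at h5
  have hK0 : ∀ a : ℝ, AL.Wf (Λ a) 0 [AL.cnp { p with j := j' } a (.lo k),
      AL.cnp { p with j := j' } a (.hi k)] =
      -AL.Wf (Λ a) (rM fun q => rz w0 q a)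
      [cz (p.y k) u0 a, cz (p.y k) (0, 0) a] := by
    intro a
    rw [rM_empty, cx'.c, ch.c]
    refine AL.Wf_swap _ _ (cz_cnr cx.cnr _ _) (cz_cnr ch.cnr _ _) ?_
    intro h
    unfold cz at h
    have h4 := (Prod.mk.injEq _ _ _ _ ▸ h).1
    have h5 := add_left_cancel h4
    rcases hi_type ch with ⟨h6, -⟩ | ⟨h6, -⟩ <;> rw [h6] at h5 <;> simp at h5
  -- the sign
  have hsgn : ∀ᶠ a in (V : Filter ℝ), AL.sgn { p with j := j' } a k =
      gr S (fun i => rz p.x i a) ((fl a (p.y k)).1 + s) *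
      gr S (fun i => rz p.x i a) ((fl a (p.y k)).1 + 1 / 4) := by
    filter_upwards [(sgn_ev (p := { p with j := j' }) ch hz).filter_mono hV] with a g1
    rw [g1]
    congr 1
    rw [ch.sg0]
    unfold gr
    have e : (fun q : Empty => (q.elim : Site)) = fun q => v0 q a := by
      funext q; exact q.elim
    rw [e]
    rfl
  have hsrc : ∀ a, (sg0 S (fun i => rz p.x i a) (cz (p.y k) u0 a)) =
      gr S (fun i => rz p.x i a) ((fl a (p.y k)).1 + s) := by
    intro a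
    rw [ch.sg0]
    unfold gr
    have e : (fun q : Empty => (q.elim : Site)) = fun q => v0 q a := by
      funext q; exact q.elim
    rw [e]
    rfl
  -- the main limit
  have main : Tendsto (fun a : ℝ => a⁻¹ * (gr S (fun i => rz p.x i a) ((fl a (p.y k)).1 + 1 / 4) *
      (gr S (fun i => rz p.x i a) ((fl a (p.y k)).1 + s) *
      AL.Wf (Λ a) (rM fun i => rz p.x i a) [cz (p.y k) u0 a, cz (p.y k) (0, 0) a]) -
      AL.Wf (Λ a) (rM fun i => rz w0 i a) [cz (p.y k) u0 a, cz (p.y k) (0, 0) a])) V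
      (𝓝 (phT u0 (Y' (p.y k)) - phT u0 (Y0' (p.y k)))) := by
    rcases hi_type ch with ⟨rfl, rfl, rfl⟩ | ⟨rfl, rfl, rfl⟩
    · rw [phT_B]
      have h1 := (hB'.B _ hzo).comp (seq_nf ((AL.flt (p.y k)).mono_left hV))
      have h2 := (hB0'.B _ hzo).comp (seq_nf ((AL.flt (p.y k)).mono_left hV))
      refine (h1.sub h2).congr' ?_
      filter_upwards [(dia_ev hL (hp.2.1 k) (1, 0) (Or.inr (Or.inl rfl))).filter_mono hV] with a ha
      have e0 : fl a (p.y k) + (1, 0) = ((fl a (p.y k)).1 + 1, (fl a (p.y k)).2) := by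
        ext <;> simp
      rw [e0] at ha
      simp only [Function.comp_apply]
      rw [eB_Wf _ _ _ ha, eB_Wf _ _ _ ha, sg1, gr1, sgr]
      have e1 : cz (p.y k) (1, 0) a = (((fl a (p.y k)).1 + 1, (fl a (p.y k)).2), fl a (p.y k)) := by
        unfold cz; rw [e0]
      rw [e1]
      ring
    · rw [phT_C]
      have h1 := (hB'.C _ hzo).comp (seq_nf ((AL.flt (p.y k)).mono_left hV))
      have h2 := (hB0'.C _ hzo).comp (seq_nf ((AL.flt (p.y k)).mono_left hV))
      refine (h1.sub h2).congr' ?_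
      filter_upwards [(dia_ev hL (hp.2.1 k) (0, 1) (Or.inr (Or.inr rfl))).filter_mono hV] with a ha
      have e0 : fl a (p.y k) + (0, 1) = ((fl a (p.y k)).1, (fl a (p.y k)).2 + 1) := by
        ext <;> simp
      rw [e0] at ha
      simp only [Function.comp_apply]
      rw [eC_Wf _ _ _ ha, eC_Wf _ _ _ ha, sg1, gr1, sgr]
      have e1 : cz (p.y k) (0, 1) a = (((fl a (p.y k)).1, (fl a (p.y k)).2 + 1), fl a (p.y k)) := by
        unfold cz; rw [e0]
      rw [e1]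
      ring
  have h4 := ((r1.mul r2).mul ((Complex.continuous_ofReal.tendsto _).comp main)).neg
  refine h4.congr' ?_
  filter_upwards [hsgn] with a g1
  simp only [Function.comp_apply]
  rw [hKn, hK0, g1]
  have e2 : sg0 S (fun i => rz p.x i a) (cz (p.y k) (0, 0) a) =
      gr S (fun i => rz p.x i a) ((fl a (p.y k)).1 + 1 / 4) := sgr a
  have e3 := hsrc a
  change -((sg0 S (fun i => rz p.x i a) (cz (p.y k) (0, 0) a) : ℂ) *
    AL.rho { p with j := j' } a (.lo k) * ((sg0 S (fun i => rz p.x i a) (cz (p.y k) u0 a) : ℂ) *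
    AL.rho { p with j := j' } a (.hi k)) * _) = _
  rw [e2, e3]
  have s1 : (gr S (fun i => rz p.x i a) ((fl a (p.y k)).1 + 1 / 4) : ℂ) *
      gr S (fun i => rz p.x i a) ((fl a (p.y k)).1 + 1 / 4) = 1 := by
    rw [← Complex.ofReal_mul, gr_sq]; simp
  have s2 : (gr S (fun i => rz p.x i a) ((fl a (p.y k)).1 + s) : ℂ) *
      gr S (fun i => rz p.x i a) ((fl a (p.y k)).1 + s) = 1 := by
    rw [← Complex.ofReal_mul, gr_sq]; simp
  generalize AL.Wf (Λ a) (rM fun i => rz p.x i a)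
    [cz (p.y k) u0 a, cz (p.y k) (0, 0) a] = W1
  generalize AL.Wf (Λ a) (rM fun i => rz w0 i a)
    [cz (p.y k) u0 a, cz (p.y k) (0, 0) a] = W2
  generalize gr S (fun i => rz p.x i a) ((fl a (p.y k)).1 + 1 / 4) = g at s1 ⊢
  generalize gr S (fun i => rz p.x i a) ((fl a (p.y k)).1 + s) = g' at s2 ⊢
  generalize AL.rho { p with j := j' } a (.lo k) = ρ1
  generalize AL.rho { p with j := j' } a (.hi k) = ρ2
  push_cast
  rw [div_eq_mul_inv]
  linear_combination (-(ρ1 * ρ2 * (a:ℂ)⁻¹ * W1 * (g':ℂ) * g')) * s1 +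
    (-(ρ1 * ρ2 * (a:ℂ)⁻¹ * W1)) * s2

end Vale.Agent.P144T.C.JF
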