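import Vale.Agent.P144X.T3
import Vale.Agent.P144X.F4
import Vale.Agent.P144T.All

/-!
The limits of the free model in a multiply connected domain do not depend on the directions of the energies.
-/

set_option linter.all false

namespace Vale.Agent.P144T.E.JF

open Finset Vale.Agent.P144.AL Filter Topology
open Vale.Agent.P144 hiding QQ XX
open Vale.Agent.P144.H436 (nn MM upd upd_j kapT Hc Hc_ne Hc_lim Hc_upd Pf_kapT)

section

variable {J : ℝ} {D : Set ℂ} {Λ : ℝ → Finset Site} {p : Pts}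

theorem dia0 (hD : D ⊆ Dia) (hp0 : Good0 D p) : H436.Good0 p :=
  ⟨fun i => hD (hp0.1 i), fun k => hD (hp0.2.1 k), hp0.2.2⟩

/-- The identity between the correlations and the Pfaffians. -/
theorem corr_id (hJ : 0 < J) (hD : D ⊆ Dia) (hΛ : Fam0 D Λ) (hp0 : Good0 D p) (hn : Even p.n)
    {ks : List (Fin p.m)} (hks : ks = (univ : Finset (Fin p.m)).toList) :
    ∀ᶠ a in 𝓝[>] (0:ℝ), (corr a (fre J Λ a) p : ℂ) = (Gn Λ (univ.image p.x) a : ℂ) *
      ((SG [] (srcs fun i => fl a (p.x i)) : ℂ) * ∏ i, ((√a : ℂ) / rho p a (.src i))) *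
      (((ks.map fun k => (wl (fun i => fl a (p.x i)) (fun k => fl a (p.y k)) p.j (.hi k) : ℂ) *
        (rho p a (.lo k) * rho p a (.hi k))).prod)⁻¹ *
        Pf (fun x y => rr p a x * rr p a y * (Kz Λ p ks a x y : ℂ)) (lbs ks [])) := by
  have hp := dia0 hD hp0
  have hx : Function.Injective p.x := fun i i' h => Sum.inl_injective (hp.2.2 (by simpa using h))
  have hxy : ∀ k i, p.y k ≠ p.x i := fun k i h => by
    have := @hp.2.2 (Sum.inr k) (Sum.inl i) (by simpa using h)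
    cases this
  have hev0 := ((sep_ev p hp).and (ins_ev hΛ hp0)).and self_mem_nhdsWithin
  have hlen : ks.length = p.m := by rw [hks, length_toList, card_univ, Fintype.card_fin]
  have hev : Even (lbs (n := p.n) ks []).length := by
    rw [lbs_length]
    simp only [List.length_nil, add_zero]
    exact hn.add (even_two_mul _)
  have hr0 : ∀ i, ∀ᶠ a in 𝓝[>] (0:ℝ), rho p a (.src i) ≠ 0 := by
    intro i
    obtain ⟨c, hc, hl⟩ := rho_src p hx i
    filter_upwards [hl.eventually_ne hc.ne'] with a h1 h2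
    apply h1
    rw [h2]; simp
  filter_upwards [hev0, eventually_all.2 hr0, (Hc_lim p hxy ks).eventually_ne (Hc_ne p hxy ks)] with a ha hr1 hH1
  have ha' : 0 < a := ha.2
  have ha0 : (a : ℂ) ≠ 0 := by exact_mod_cast ha'.ne'
  have hs : (√a : ℂ) ≠ 0 := by exact_mod_cast (Real.sqrt_pos.2 ha').ne'
  rw [corr_eq Λ p hJ ha.1.1 ha.1.2, ← hks, ← Gn_eq Λ p hx ha', Pf_scale _ _ _ hev,
    rr_prod p ha', hlen]
  push_cast
  rw [Pf_ofReal]
  have hP : (∏ i, (√a : ℂ) / rho p a (.src i)) * ∏ i, rho p a (.src i) / (√a : ℂ) = 1 := by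
    rw [← prod_mul_distrib]
    refine prod_eq_one fun i _ => ?_
    have := hr1 i
    field_simp
  generalize (∏ i, (√a : ℂ) / rho p a (.src i)) = A at *
  generalize (∏ i, rho p a (.src i) / (√a : ℂ)) = B at *
  generalize ((ks.map fun k => (wl (fun i => fl a (p.x i)) (fun k => fl a (p.y k)) p.j (.hi k) :
    ℂ) * (rho p a (.lo k) * rho p a (.hi k))).prod) = D at *
  generalize Pf (fun x y => (Kz Λ p ks a x y : ℂ)) (lbs ks []) = P at *
  have hA : A * (B * D * (a : ℂ)⁻¹ ^ p.m * P) = D * ((a : ℂ)⁻¹ ^ p.m * P) := by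
    linear_combination (D * (a : ℂ)⁻¹ ^ p.m * P) * hP
  have h5 : A * (D⁻¹ * (B * D * (a : ℂ)⁻¹ ^ p.m * P)) = (a : ℂ)⁻¹ ^ p.m * P := by
    rw [show A * (D⁻¹ * (B * D * (a : ℂ)⁻¹ ^ p.m * P)) =
      D⁻¹ * (A * (B * D * (a : ℂ)⁻¹ ^ p.m * P)) by ring, hA, ← mul_assoc,
      inv_mul_cancel₀ hH1, one_mul]
  linear_combination (-(Gn Λ (univ.image p.x) a : ℂ) * (SG [] (srcs fun i => fl a (p.x i)) : ℂ)) * h5

/-- The limits in explicit form. -/
theorem corr_lim (hJ : 0 < J) (hD : D ⊆ Dia) (hΛ : Fam0 D Λ) (hp0 : Good0 D p) (hn : Even p.n)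
    {ks : List (Fin p.m)} (hks : ks = (univ : Finset (Fin p.m)).toList)
    {kap : Lb p.n p.m → Lb p.n p.m → ℂ}
    (hkl : ∀ x y : Lb p.n p.m, [x, y].Sublist (lbs ks []) → Tendsto (fun a : ℝ =>
      rr p a x * rr p a y * (Kz Λ p ks a x y : ℂ)) (𝓝[>] 0) (𝓝 (kap x y)))
    {g : ℝ} (hg : Tendsto (Gn Λ (univ.image p.x)) (𝓝[>] 0) (𝓝 g)) {c : ℂ}
    (hc : Tendsto (fun a : ℝ => (el (srcs fun i => fl a (p.x i)) : ℂ) *
      ∏ i, ((√a : ℂ) / rho p a (.src i))) (𝓝[>] 0) (𝓝 c)) :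
    Lim (fre J Λ) p ((g : ℂ) * c * ((Hc p ks)⁻¹ * Pf kap (lbs ks []))).re := by
  have hxy : ∀ k i, p.y k ≠ p.x i := fun k i h => by
    have := @hp0.2.2 (Sum.inr k) (Sum.inl i) (by simpa using h)
    cases this
  have hPf := Pf_tendstoC (fun a x y => rr p a x * rr p a y * (Kz Λ p ks a x y : ℂ)) kap
    (lbs ks []) hkl
  have hHP := ((Hc_lim p hxy ks).inv₀ (Hc_ne p hxy ks)).mul hPf
  have hg' : Tendsto (fun a => (Gn Λ (univ.image p.x) a : ℂ)) (𝓝[>] 0) (𝓝 (g : ℂ)) :=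
    (Complex.continuous_ofReal.tendsto _).comp hg
  have hc' : Tendsto (fun a : ℝ => (SG [] (srcs fun i => fl a (p.x i)) : ℂ) *
      ∏ i, ((√a : ℂ) / rho p a (.src i))) (𝓝[>] 0) (𝓝 c) := by
    refine hc.congr fun a => ?_
    unfold SG
    simp
  have hall := ((hg'.mul hc').mul hHP).congr'
    ((corr_id hJ hD hΛ hp0 hn hks).mono fun a h => h.symm)
  exact (Complex.continuous_re.tendsto _).comp hall

/-- Odd numbers of spins. -/
theorem corr_odd (hJ : 0 < J) (hD : D ⊆ Dia) (hΛ : Fam0 D Λ) (hp0 : Good0 D p)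
    (hn : ¬ Even p.n) : Lim (fre J Λ) p 0 := by
  refine tendsto_const_nhds.congr' ?_
  filter_upwards [(sep_ev p (dia0 hD hp0)).and (ins_ev hΛ hp0)] with a ha
  have hev : ¬ Even (lbs (n := p.n) (univ : Finset (Fin p.m)).toList []).length := by
    rw [lbs_length]
    intro h
    apply hn
    simp only [List.length_nil, add_zero] at h
    exact (Nat.even_add.1 h).2 (even_two_mul _)
  rw [corr_eq Λ p hJ ha.1 ha.2, Pf_odd _ _ hev]
  ring

/-- Both directions have the same limit. -/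
theorem flip_lim (hJ : 0 < J) (hD : D ⊆ Dia) (hΛ : Fam0 D Λ) (hp0 : Good0 D p) {k : Fin p.m}
    (hKP : K1 Λ (upd p k 0) ∧ K2 Λ (upd p k 0) ∧ K3 Λ (upd p k 0) ∧ K4 Λ (upd p k 0))
    (hj : KJ Λ p k) (hn : Even p.n)
    {g : ℝ} (hg : Tendsto (Gn Λ (univ.image p.x)) (𝓝[>] 0) (𝓝 g)) :
    ∃ r, Lim (fre J Λ) (upd p k 0) r ∧ Lim (fre J Λ) (upd p k 1) r := by
  classical
  have hp := dia0 hD hp0
  obtain ⟨P, R, hPR⟩ := List.append_of_mem (mem_toList.2 (mem_univ k))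
  have hks : (P ++ k :: R).Nodup := hPR ▸ nodup_toList _
  obtain ⟨c, hc⟩ := src_lim p (fun i i' h => Sum.inl_injective (hp.2.2 (by simpa using h)))
  set K : Lb p.n p.m → Lb p.n p.m → ℂ := fun x y => if h : ∃ c : ℂ,
    Tendsto (fun a : ℝ => AL.rr (upd p k 0) a x *
      AL.rr (upd p k 0) a y * (Kz Λ (upd p k 0) (P ++ k :: R) a x y : ℂ)) (𝓝[>] 0) (𝓝 c)
    then h.choose else 0 with hKdef
  have hK : ∀ x y : Lb p.n p.m, [x, y].Sublist (lbs (n := p.n) (P ++ k :: R) []) →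
      Tendsto (fun a : ℝ => AL.rr (upd p k 0) a x * AL.rr (upd p k 0) a y *
        (Kz Λ (upd p k 0) (P ++ k :: R) a x y : ℂ)) (𝓝[>] 0) (𝓝 (K x y)) := by
    intro x y hxy
    have h := Kz_lim Λ (upd p k 0) hp hKP hks hxy
    simp only [hKdef]
    rw [dif_pos h]
    exact h.choose_spec
  have hK1 := kapT_lim hks hp hj hK
  have l0 := corr_lim (p := upd p k 0) hJ hD hΛ hp0 hn hPR.symm (kap := K) hK hg hc
  have l1 := corr_lim (p := upd p k 1) hJ hD hΛ hp0 hn hPR.symm (kap := kapT k K) hK1 hg hc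
  refine ⟨_, l0, ?_⟩
  have e : (Hc (upd p k 1) (P ++ k :: R))⁻¹ * Pf (kapT k K) (lbs (n := p.n) (P ++ k :: R) []) =
      (Hc (upd p k 0) (P ++ k :: R))⁻¹ * Pf K (lbs (n := p.n) (P ++ k :: R) []) := by
    rw [Hc_upd hks, Pf_kapT hks, inv_neg]
    ring
  have l1' : Lim (fre J Λ) (upd p k 1) ((g : ℂ) * c *
      ((Hc (upd p k 1) (P ++ k :: R))⁻¹ * Pf (kapT k K) (lbs (n := p.n) (P ++ k :: R) []))).re := l1
  rw [e] at l1'
  exact l1'

/-- The limits do not depend on one direction. -/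
theorem upd_lim (hJ : 0 < J) (hD : D ⊆ Dia) (hΛ : Fam0 D Λ)
    (hK : ∀ p, Good0 D p → K1 Λ p ∧ K2 Λ p ∧ K3 Λ p ∧ K4 Λ p)
    (hj : ∀ p, Good0 D p → ∀ k, KJ Λ p k) (hN : NormE D Λ) (hp0 : Good0 D p) {k : Fin p.m}
    (e e' : Fin 2) {r : ℝ} (h : Lim (fre J Λ) (upd p k e) r) : Lim (fre J Λ) (upd p k e') r := by
  classical
  by_cases hn : Even p.n
  swap
  · have h0 := corr_odd (p := upd p k e) hJ hD hΛ hp0 hn
    rw [tendsto_nhds_unique h h0]
    exact corr_odd (p := upd p k e') hJ hD hΛ hp0 hn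
  have hX : ∀ z ∈ univ.image p.x, z ∈ D := by
    intro z hz
    obtain ⟨i, _, rfl⟩ := mem_image.1 hz
    exact hp0.1 i
  have hx : Function.Injective p.x := fun i i' h => Sum.inl_injective (hp0.2.2 (by simpa using h))
  obtain ⟨g, _, hg⟩ := hN _ hX (by rw [card_im p hx]; exact hn)
  obtain ⟨s, h0, h1⟩ := flip_lim hJ hD hΛ hp0 (hK (upd p k 0) hp0) (hj p hp0 k) hn hg
  have key : ∀ f : Fin 2, Lim (fre J Λ) (upd p k f) s := by
    intro f
    fin_cases f
    · exact h0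
    · exact h1
  rw [tendsto_nhds_unique h (key e)]
  exact key e'

end

/-- The limits do not depend on the directions. -/
theorem dir_lim {J : ℝ} {D : Set ℂ} {Λ : ℝ → Finset Site} {p : Pts} (hJ : 0 < J) (hD : D ⊆ Dia)
    (hΛ : Fam0 D Λ) (hK : ∀ p, Good0 D p → K1 Λ p ∧ K2 Λ p ∧ K3 Λ p ∧ K4 Λ p)
    (hj : ∀ p, Good0 D p → ∀ k, KJ Λ p k) (hN : NormE D Λ) (hp0 : Good0 D p) {r : ℝ}
    (h : Lim (fre J Λ) p r) (j' : Fin p.m → Fin 2) : Lim (fre J Λ) { p with j := j' } r := by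
  refine P144Q.E.JF.all_dir (p := p) (Q := fun j => Lim (fre J Λ) { p with j := j } r) (fun j k e hj0 => ?_) h j'
  refine upd_lim (p := { p with j := j }) (k := k) hJ hD hΛ hK hj hN hp0 (j k) e ?_
  show Lim (fre J Λ) { p with j := Function.update j k (j k) } r
  rw [Function.update_eq_self]
  exact hj0

end Vale.Agent.P144T.E.JF

namespace Vale.Agent.P144X

open Filter Topology Vale.Agent.P144 Vale.Agent.P144T

/-- **The free limits do not depend on the directions**, connected domains. -/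
theorem jfreeT {J : ℝ} (hJ : 0 < J) {D : Set ℂ} (h : P144Q.L.Lip3 D) (hs : IsConnected D)
    {p : Pts} (hp : Good D p) {c : ℝ} (hc : Lim (crit J D none) p c) (j : Fin p.m → Fin 2) :
    Lim (crit J D none) { p with j := j } c := by
  obtain ⟨t, R0, hsm⟩ := P144Q.U.exists_small h.2.1
  have h' := P144Q.U.lip3_div R0 h
  have hs' : IsConnected ((fun z => z / (t : ℂ)) '' D) := hs.image _ (by fun_prop)
  have hp' := P144Q.B.good_shr R0 hp
  obtain ⟨c', hc'⟩ := all3 hJ h' hs' _ hp'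
  rw [tendsto_nhds_unique hc (P144Q.B.lim_div R0 hc')]
  refine P144Q.B.lim_div (p := { p with j := j }) R0 ?_
  show Lim _ { P144Q.B.shr p t with j := j } c'
  generalize (fun z => z / (t : ℂ)) '' D = D' at hsm h' hs' hp' hc'
  obtain ⟨Ω, rfl⟩ := dom3 h' hs' hsm
  obtain ⟨Ω', hΩ'⟩ := dom3 (P144Q.U.lip3_rc h') (hs'.image _ P144Q.U.rc_cont.continuousOn)
    (P144Q.U.small_rc hsm)
  have hF := lat3 h'
  exact E.JF.dir_lim hJ (fun _ hz => Ω.dia hz) hF
    (fun p hp => ⟨(G.k12 A.xj Ω _ hF p hp).1, (G.k12 A.xj Ω _ hF p hp).2, (C.k34 Ω _ hF p hp).1,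
      (C.k34 Ω _ hF p hp).2⟩) (fun p hp k => G.JF.kj (A.xj Ω) hF p hp k)
    (E.norm _ _ Ω.op Ω.small hF (B.ratio A.xj Ω Ω' hΩ' _ hF)) hp'.2 hc' j

end Vale.Agent.P144X
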